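import Crest.Agent.N228.Cf.Step

/-!
# Row 228, conformal toolbox (helper28): GEN with a conformal factor, buffers, the trace budget
-/

set_option autoImplicit false
set_option linter.unusedSectionVars false
open Set Filter Topology Function
open scoped ContDiff
open Crest.Agent.N222 Crest.Agent.N222.Imm Crest.Agent.N222.A

noncomputable section

namespace Crest.Agent.N228.Cf

variable {d : ℕ} {ι ι' : Type} [Fintype ι] [DecidableEq ι] [Fintype ι'] [DecidableEq ι']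
  {X : Type} [TopologicalSpace X] {M : Imm d ι X} {b : ι → X → ℝ} {v m Q σ a : X → ℝ} {u0 : ℝ}
  {f : ℝ → ℝ} {M' : Imm d ι' X} {b' : ι' → X → ℝ}

/-- the price of the conformal factor, `f1 = f'(v)`, `f2 = f''(v)` -/
def cfl (d U W a f1 f2 : ℝ) : ℝ :=
  2 * (1 / U - a * U / 2) * f1 * (1 / W ^ 2) * (1 - 1 / W ^ 2)
    + f1 ^ 2 * ((1 / W ^ 2) ^ 2 + 1 / W ^ 2 + d - 2) + 2 * f2 * (1 - 1 / W ^ 2)

theorem gen_num' {W U u0 b a e τ Gb Ga f1 f2 d : ℝ} (hW : 1 ≤ W) (hu : 0 < u0) (hU : u0 ≤ U) :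
    gen U W b (Gb / W) a (Ga / W) - ((2 / u0 + |a| * U) * |e| + e ^ 2) - cfl d U W a f1 f2 ≤
      ((1 - W⁻¹) / U - b * U / 2 + a * W⁻¹ * U / 2) ^ 2
        - (e + (a * U / 2 - (1 - W⁻¹) / U)) ^ 2
        - 2 * (-τ / U - (1 - W⁻¹) * (W - W⁻¹) / U ^ 2 - (W⁻¹ * Gb * U + b * (W - W⁻¹)) / 2
          + (W⁻¹ * Ga * W⁻¹ * U + a * τ * U + a * W⁻¹ * (W - W⁻¹)) / 2)
        - 2 * (1 / U - a * U / 2) * τ
        - (f1 * W⁻¹ ^ 2 + (1 / U - a * U / 2) * (1 - W⁻¹ ^ 2)) ^ 2 - (d - 1) * f1 ^ 2 * W⁻¹ ^ 2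
        - (2 * f2 + (d - 2) * f1 ^ 2) * (1 - W⁻¹ ^ 2) := by
  have W0 : 0 < W := by linarith
  have U0 : 0 < U := by linarith
  have y0 : 0 ≤ 1 - W⁻¹ := sub_nonneg.2 (inv_le_one_of_one_le₀ hW)
  have y1 : (1 - W⁻¹) / U ≤ 1 / u0 :=
    div_le_div₀ zero_le_one (by linarith [inv_pos.2 W0]) hu hU
  have h2 : |a * U / 2 - (1 - W⁻¹) / U| ≤ |a| * U / 2 + 1 / u0 := by
    refine (abs_sub _ _).trans (add_le_add ?_ ?_)
    · rw [abs_div, abs_mul, abs_of_pos U0, abs_two]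
    · rwa [abs_of_nonneg (div_nonneg y0 U0.le)]
  have h3 : e * (a * U / 2 - (1 - W⁻¹) / U) ≤ |e| * (|a| * U / 2 + 1 / u0) :=
    (le_abs_self _).trans (by rw [abs_mul]; exact mul_le_mul_of_nonneg_left h2 (abs_nonneg _))
  have e1 : gen U W b (Gb / W) a (Ga / W) =
      -((1 / U - a * U / 2) ^ 2 * (1 - W⁻¹ ^ 2) ^ 2) - 2 * (1 / U - a * U / 2) * τ
      + ((1 - W⁻¹) / U - b * U / 2 + a * W⁻¹ * U / 2) ^ 2 - (a * U / 2 - (1 - W⁻¹) / U) ^ 2
        - 2 * (-τ / U - (1 - W⁻¹) * (W - W⁻¹) / U ^ 2 - (W⁻¹ * Gb * U + b * (W - W⁻¹)) / 2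
          + (W⁻¹ * Ga * W⁻¹ * U + a * τ * U + a * W⁻¹ * (W - W⁻¹)) / 2) := by
    unfold gen; field_simp; ring
  have e2 : (2 / u0 + |a| * U) * |e| = 2 * (|e| * (|a| * U / 2 + 1 / u0)) := by ring
  have e3 : cfl d U W a f1 f2 = (f1 * W⁻¹ ^ 2 + (1 / U - a * U / 2) * (1 - W⁻¹ ^ 2)) ^ 2
      - (1 / U - a * U / 2) ^ 2 * (1 - W⁻¹ ^ 2) ^ 2 + (d - 1) * f1 ^ 2 * W⁻¹ ^ 2
      + (2 * f2 + (d - 2) * f1 ^ 2) * (1 - W⁻¹ ^ 2) := by
    rw [cfl, one_div (W ^ 2), ← inv_pow]; ring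
  rw [e1, e2, e3, add_sq e]
  linarith

/-- **GEN with a conformal factor** `e^{2 f(v)}` -/
theorem Step.gen_le (h : Step M b v (mm M.pre b Q σ a v u0) f M' b') (hQ : M.Sm Q) (hσ : M.Sm σ)
    (ha : M.Sm a) (hv : M.Sm v) (v0 : ∀ p, 0 ≤ v p) (hu : 0 < u0) (p : X) :
    Real.exp (-(2 * f (v p))) * (M.pre.Eb b p
      + gen (u0 + v p) (√(1 + M.pre.gam v v p)) (beta Q σ v u0 p)
        (M.pre.gam v (beta Q σ v u0) p / √(1 + M.pre.gam v v p)) (a p)
        (M.pre.gam v a p / √(1 + M.pre.gam v v p))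
      - ((2 / u0 + |a p| * (u0 + v p)) * |dfc M.pre b Q σ v u0 p| + dfc M.pre b Q σ v u0 p ^ 2)
      - cfl d (u0 + v p) (√(1 + M.pre.gam v v p)) (a p) (deriv f (v p)) (deriv (deriv f) (v p)))
      ≤ M'.pre.Eb b' p := by
  refine le_trans (mul_le_mul_of_nonneg_left ?_ (Real.exp_pos _).le)
    (h.le hv p (1 / (u0 + v p) - a p * (u0 + v p) / 2))
  have hW : 1 ≤ √(1 + M.pre.gam v v p) :=
    Real.one_le_sqrt.2 (by linarith [gam_self_nonneg (M := M) v p])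
  have wv := ww_mul_vv M v
  have en : nf M b v (mm M.pre b Q σ a v u0) = nn M.pre Q σ a v u0 := funext fun q => by
    simp only [nf, mm]
    linear_combination (M.pre.hb b v (vv M.pre v) q + nn M.pre Q σ a v u0 q) * wv q
  have em : mm M.pre b Q σ a v u0 p = dfc M.pre b Q σ v u0 p
      + (a p * (u0 + v p) / 2 - (1 - vv M.pre v p) / (u0 + v p)) := by
    simp only [mm, dfc, nn]
    linear_combination (a p * (u0 + v p) / 2 - (1 - vv M.pre v p) / (u0 + v p)) * wv p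
  have ev : vv M.pre v p * M.pre.gam v v p = ww M.pre v p - vv M.pre v p := by
    linear_combination ww M.pre v p * vv_sq_mul M v p
      - (vv M.pre v p * M.pre.gam v v p + vv M.pre v p) * wv p
  have n1 := gen_num' (b := beta Q σ v u0 p) (a := a p) (e := dfc M.pre b Q σ v u0 p)
    (τ := xd M v (vv M.pre v) p) (Gb := M.pre.gam v (beta Q σ v u0) p) (Ga := M.pre.gam v a p)
    (f1 := deriv f (v p)) (f2 := deriv (deriv f) (v p)) (d := d) hW hu
    (le_add_of_nonneg_right (v0 p))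
  have k := dir_nn hQ hσ ha hv v0 hu (M.pre.X v (vv M.pre v)) p
  rw [dirX v v, dirX v a, dirX v (beta Q σ v u0), dirX, dirX, ev] at k
  rw [en, em, xd, k]
  simp only [nn, A.vv, ww, xd] at n1 ⊢
  linarith

/-- the conformal factor `-z (p - p₀)`, `p = (u₀ + t)² / 4` -/
def cz (z u0 t : ℝ) : ℝ := -(z * (((u0 + t) ^ 2 - u0 ^ 2) / 4))

theorem contDiff_cz (z u0 : ℝ) : ContDiff ℝ ∞ (cz z u0) :=
  (contDiff_const.mul ((((contDiff_const.add contDiff_id).pow 2).sub contDiff_const).div_const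
    4)).neg

theorem deriv_cz (z u0 : ℝ) : deriv (cz z u0) = fun t => -(z * (u0 + t) / 2) := by
  funext t
  have h := ((((((hasDerivAt_id t).const_add u0).fun_pow 2).sub_const (u0 ^ 2)).div_const
    4).const_mul z).fun_neg
  refine h.deriv.trans ?_
  simp only [id]
  ring

theorem deriv2_cz (z u0 t : ℝ) : deriv (deriv (cz z u0)) t = -(z / 2) := by
  rw [deriv_cz]
  have h := ((((hasDerivAt_id t).const_add u0).const_mul z).div_const 2).fun_neg
  refine h.deriv.trans ?_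
  ring

theorem cfl_cz_le {d U W a z : ℝ} (hW : 1 ≤ W) (hU : 0 < U) :
    cfl d U W a (-(z * U / 2)) (-(z / 2)) ≤ -(z * (1 - 1 / W ^ 2) * (1 + 1 / W ^ 2))
      + z * a * (U ^ 2 / 2) * (1 / W ^ 2) * (1 - 1 / W ^ 2) + d * z ^ 2 * (U ^ 2 / 4) := by
  have h0 : 0 ≤ 1 / W ^ 2 := by positivity
  have h1 : 1 / W ^ 2 ≤ 1 := (div_le_one (by positivity)).2 (one_le_pow₀ hW)
  rw [cfl]
  generalize 1 / W ^ 2 = w at h0 h1 ⊢
  have e : 2 * (1 / U - a * U / 2) * -(z * U / 2) = -z + z * a * (U ^ 2 / 2) := by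
    field_simp; ring
  have h2 : 0 ≤ 2 - w ^ 2 - w := by nlinarith
  rw [e]
  nlinarith [mul_nonneg (sq_nonneg (z * U / 2)) h2]

/-- **GEN\***: the conformal factor `e^{-2 z (p - p₀)}` gains `z χ (1 + ω²)` -/
theorem Step.gen_z {z : ℝ} (h : Step M b v (mm M.pre b Q σ a v u0) (cz z u0) M' b') (hQ : M.Sm Q)
    (hσ : M.Sm σ) (ha : M.Sm a) (hv : M.Sm v) (v0 : ∀ p, 0 ≤ v p) (hu : 0 < u0) (p : X) :
    Real.exp (z * (((u0 + v p) ^ 2 - u0 ^ 2) / 2)) * (M.pre.Eb b p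
      + gen (u0 + v p) (√(1 + M.pre.gam v v p)) (beta Q σ v u0 p)
        (M.pre.gam v (beta Q σ v u0) p / √(1 + M.pre.gam v v p)) (a p)
        (M.pre.gam v a p / √(1 + M.pre.gam v v p))
      - ((2 / u0 + |a p| * (u0 + v p)) * |dfc M.pre b Q σ v u0 p| + dfc M.pre b Q σ v u0 p ^ 2)
      + z * (1 - 1 / √(1 + M.pre.gam v v p) ^ 2) * (1 + 1 / √(1 + M.pre.gam v v p) ^ 2)
      - z * a p * ((u0 + v p) ^ 2 / 2) * (1 / √(1 + M.pre.gam v v p) ^ 2)
        * (1 - 1 / √(1 + M.pre.gam v v p) ^ 2)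
      - d * z ^ 2 * ((u0 + v p) ^ 2 / 4)) ≤ M'.pre.Eb b' p := by
  have hW : 1 ≤ √(1 + M.pre.gam v v p) :=
    Real.one_le_sqrt.2 (by linarith [gam_self_nonneg (M := M) v p])
  have h1 := h.gen_le hQ hσ ha hv v0 hu p
  have e : -(2 * cz z u0 (v p)) = z * (((u0 + v p) ^ 2 - u0 ^ 2) / 2) := by rw [cz]; ring
  rw [deriv2_cz, deriv_cz, e] at h1
  refine le_trans (mul_le_mul_of_nonneg_left ?_ (Real.exp_pos _).le) h1
  linarith [cfl_cz_le (d := d) (a := a p) (z := z) hW (add_pos_of_pos_of_nonneg hu (v0 p))]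

theorem Step.gam_z {z : ℝ} (h : Step M b v m (cz z u0) M' b') (hv : M.Sm v) {g k : X → ℝ}
    (hg : M.Sm g) (hk : M.Sm k) (p : X) : M'.pre.gam g k p =
      Real.exp (z * (((u0 + v p) ^ 2 - u0 ^ 2) / 2)) *
        (M.pre.gam g k p - M.pre.gam v g p * M.pre.gam v k p / (1 + M.pre.gam v v p)) := by
  rw [h.gam_eq hv hg hk, cz]
  congr 2
  ring

/-- **buffers**: `G` is the prescribed value of `h = div X + b(X)`, `m = W (h - G)` the defect -/
theorem Step.buf_le {G : X → ℝ} (h : Step M b v (fun p => ww M.pre v p * (hh M b v p - G p)) f M' b')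
    (hv : M.Sm v) (p : X) : Real.exp (-(2 * f (v p))) * (M.pre.Eb b p + G p ^ 2
      + 2 * xd M v G p - (ww M.pre v p * (hh M b v p - G p)) ^ 2 - d * deriv f (v p) ^ 2
      - 2 * deriv (deriv f) (v p) * (1 - vv M.pre v p ^ 2)) ≤ M'.pre.Eb b' p := by
  refine le_trans (mul_le_mul_of_nonneg_left ?_ (Real.exp_pos _).le) (h.le hv p 0)
  have en : nf M b v (fun p => ww M.pre v p * (hh M b v p - G p)) = fun p => -G p :=
    funext fun q => by
      simp only [nf]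
      linear_combination (hh M b v q - G q) * ww_mul_vv M v q
  have e2 : xd M v (fun p => -G p) p = -xd M v G p := by
    simp only [xd, gam_apply, D_neg, mul_neg, Finset.sum_neg_distrib]
  have h0 : 0 ≤ vv M.pre v p ^ 2 := sq_nonneg _
  have h1 : vv M.pre v p ^ 2 ≤ 1 := by
    nlinarith [vv_sq_mul M v p, mul_nonneg h0 (gam_self_nonneg (M := M) v p)]
  have h2 : 0 ≤ 2 - (vv M.pre v p ^ 2) ^ 2 - vv M.pre v p ^ 2 := by nlinarith
  rw [en, e2]
  nlinarith [mul_nonneg (sq_nonneg (deriv f (v p))) h2]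

/-- where `v` is locally constant the step with `n = G` changes only the scale -/
theorem Step.gam_of_grad (h : Step M b v m f M' b') (hv : M.Sm v) {g k : X → ℝ} (hg : M.Sm g)
    (hk : M.Sm k) {p : X} (h0 : M.pre.gam v v p = 0) :
    M'.pre.gam g k p = Real.exp (-(2 * f (v p))) * M.pre.gam g k p := by
  have h1 : M.pre.gam v g p = 0 := by
    rw [gam_self_eq, sq_eq_zero_iff, norm_eq_zero] at h0
    rw [gam_eq_inner, h0, inner_zero_left]
  rw [h.gam_eq hv hg hk, h1]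
  simp

theorem Step.gam_le (h : Step M b v m f M' b') (hv : M.Sm v) {g : X → ℝ} (hg : M.Sm g) (p : X) :
    M'.pre.gam g g p ≤ Real.exp (-(2 * f (v p))) * M.pre.gam g g p := by
  rw [h.gam_eq hv hg hg]
  refine mul_le_mul_of_nonneg_left (sub_le_self _ (div_nonneg (mul_self_nonneg _) ?_))
    (Real.exp_pos _).le
  linarith [gam_self_nonneg (M := M) v p]

/-! ### the trace budget -/

/-- `∑ dv_k ⊗ dv_k ≤ L g` implies `∑ |dv_k|² ≤ d L` -/
theorem trace_le (M : Imm d ι X) (l : List (X → ℝ)) (L : ℝ) (p : X)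
    (h : ∀ g, M.Sm g → (l.map fun w => M.pre.gam w g p ^ 2).sum ≤ L * M.pre.gam g g p) :
    (l.map fun w => M.pre.gam w w p).sum ≤ d * L := by
  have h1 : (l.map fun w => M.pre.gam w w p).sum =
      ∑ c, (l.map fun w => M.pre.gam w (M.pre.x c) p ^ 2).sum := by
    clear h
    induction l with
    | nil => simp
    | cons w l ih =>
      simp only [List.map_cons, List.sum_cons, Finset.sum_add_distrib, ih]
      congr 1
      rw [gam_apply]
      exact Finset.sum_congr rfl fun c _ => by rw [gam_comm, gam_x_left, sq]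
  rw [h1, ← M.tr_P p, Finset.sum_mul]
  refine Finset.sum_le_sum fun c _ => (h _ (M.sm_coord c)).trans_eq ?_
  rw [mul_comm]
  congr 1
  exact gam_x_left M c _ p

/-- the matrix budget survives a step (`κ` is the conformal factor of `Γ`) -/
theorem budget_step {Z : Type} {A : Alg Z} {T T' : Pt A} {v : Z → ℝ} {κ L : ℝ} (hv : A.Sm v)
    (hL : 1 ≤ L) (hT : ∀ g k, A.Sm g → A.Sm k →
      T'.Γ g k = κ * (T.Γ g k - T.Γ v g * T.Γ v k / (1 + T.Γ v v)))
    {l : List (Z → ℝ)} (hl : ∀ w ∈ l, A.Sm w)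
    (h : ∀ g, A.Sm g → (l.map fun w => T.Γ w g ^ 2).sum ≤ L * T.Γ g g) (g : Z → ℝ) (hg : A.Sm g) :
    ((v :: l).map fun w => T'.Γ w g ^ 2).sum ≤ κ * L * T'.Γ g g := by
  have t0 : 0 < 1 + T.Γ v v := by linarith [T.nonneg hv]
  set c := T.Γ v g / (1 + T.Γ v v) with hc
  have hs : A.Sm fun z => -c * v z := A.mul (A.const _) hv
  have hg' : A.Sm fun z => g z + -c * v z := A.add hg hs
  have c0 : ∀ (r : ℝ) k, A.Sm k → T.Γ (fun _ => r) k = 0 := fun r k hk => by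
    have := T.chain (φ := fun _ => r) (c := 0) hv (A.const r) hk (hasDerivAt_const _ _)
    simpa using this
  have e1 : ∀ k, A.Sm k → T.Γ (fun z => g z + -c * v z) k = T.Γ g k - c * T.Γ v k := fun k hk => by
    rw [T.add hg hs hk, T.mul (A.const _) hv hk, c0 _ k hk]
    ring
  have e2 : ∀ w, A.Sm w → T'.Γ w g = κ * T.Γ w fun z => g z + -c * v z := fun w hw => by
    rw [hT w g hw hg, T.symm hw hg', e1 w hw, T.symm hw hg, hc]
    ring
  have e3 : (l.map fun w => T'.Γ w g ^ 2).sum =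
      κ ^ 2 * (l.map fun w => T.Γ w (fun z => g z + -c * v z) ^ 2).sum := by
    rw [← List.sum_map_mul_left]
    exact congrArg List.sum (List.map_congr_left fun w hw => by rw [e2 w (hl w hw), mul_pow])
  have e4 : T.Γ v g = c * (1 + T.Γ v v) := by rw [hc]; field_simp
  have e5 : T'.Γ v g = κ * c := by rw [e2 v hv, T.symm hv hg', e1 v hv, T.symm hg hv, e4]; ring
  have e6 : T'.Γ g g = κ * (T.Γ (fun z => g z + -c * v z) (fun z => g z + -c * v z) + c ^ 2) := by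
    rw [e2 g hg, e1 _ hg', T.symm hv hg', e1 v hv, T.symm hg hv, e4]
    ring
  have h2 := mul_le_mul_of_nonneg_left (h _ hg') (sq_nonneg κ)
  rw [List.map_cons, List.sum_cons, e3, e5, e6]
  nlinarith [mul_nonneg (sq_nonneg (κ * c)) (sub_nonneg.2 hL)]

end Crest.Agent.N228.Cf

end
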