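import Crest.Agent.N222.F.Coord
import Crest.Agent.N346.Id.Conf

/-!
# Row 228, conformal toolbox (helper28): the conformal law on immersed manifolds

`CfRel M M' ψ` : same atlas, `g' = e^{2ψ} g`.  `trb M M' b` : the one-form `b` as a field of `M'`.
`cfb M M' ψ k b = b + k dψ`.  `CfRel.Eb_eq` : the law for `E = R - 2 div b - |b|²`.
-/

set_option autoImplicit false
set_option linter.unusedSectionVars false
open Set Filter Topology Function
open scoped ContDiff InnerProductSpace RealInnerProductSpace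
open Crest.GeometryTopology.CoordMetric Crest.Agent.N222 Crest.Agent.N222.Imm

noncomputable section

namespace Crest.Agent.N228.Cf

variable {d : ℕ} {ι ι' : Type} [Fintype ι] [Fintype ι'] {X : Type} [TopologicalSpace X]

/-- `g' = e^{2ψ} g` on the same atlas -/
structure CfRel (M : Imm d ι X) (M' : Imm d ι' X) (ψ : X → ℝ) : Prop where
  ch : M'.ch = M.ch
  sm : M.Sm ψ
  eq : ∀ p, ∀ z ∈ (M.ch p).target, gram (M'.x ∘ (M.ch p).symm) z =
    Real.exp (2 * ψ ((M.ch p).symm z)) • gram (M.x ∘ (M.ch p).symm) z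

variable [DecidableEq ι] [DecidableEq ι']

/-- the one-form `b` of `M` as a tangential field of `M'` -/
def trb (M : Imm d ι X) (M' : Imm d ι' X) (b : ι → X → ℝ) (A : ι') (p : X) : ℝ :=
  ∑ a, b a p * M'.pre.D A (M.pre.x a) p

/-- the drift `b + k dψ` as a tangential field of `M'` -/
def cfb (M : Imm d ι X) (M' : Imm d ι' X) (ψ : X → ℝ) (k : ℝ) (b : ι → X → ℝ) (A : ι') (p : X) :
    ℝ := trb M M' b A p + k * M'.pre.D A ψ p

theorem gam_x_left (M : Imm d ι X) (a : ι) (f : X → ℝ) (p : X) :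
    M.pre.gam (M.pre.x a) f p = M.pre.D a f p := by
  rw [gam_apply, ← sum_P_D f a p]
  exact Finset.sum_congr rfl fun c _ => by rw [M.P_symm a c]; rfl

theorem gam_comm (M : Imm d ι X) (f g : X → ℝ) (p : X) : M.pre.gam f g p = M.pre.gam g f p := by
  simp only [gam_apply, mul_comm]

theorem Eb_apply (M : Imm d ι X) (b : ι → X → ℝ) (p : X) :
    M.pre.Eb b p = M.pre.scal p - 2 * M.pre.dv b p - ∑ a, b a p * b a p := by
  simp [Pre.Eb]

theorem tan_apply {M : Imm d ι X} {b : ι → X → ℝ} (hb : M.pre.Tan b) (a : ι) (p : X) :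
    ∑ c, M.pre.P a c p * b c p = b a p := by
  simpa using congrFun (hb a) p

theorem tan_trb (M : Imm d ι X) (M' : Imm d ι' X) (b : ι → X → ℝ) : M'.pre.Tan (trb M M' b) := by
  intro A
  funext p
  simp only [Finset.sum_apply, Pi.mul_apply, trb, Finset.mul_sum]
  rw [Finset.sum_comm]
  refine Finset.sum_congr rfl fun a _ => ?_
  rw [← sum_P_D (M := M') (M.pre.x a) A p, Finset.mul_sum]
  exact Finset.sum_congr rfl fun c _ => by ring

theorem tan_cfb (M : Imm d ι X) (M' : Imm d ι' X) (ψ : X → ℝ) (k : ℝ) (b : ι → X → ℝ) :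
    M'.pre.Tan (cfb M M' ψ k b) := by
  intro A
  funext p
  simp only [Finset.sum_apply, Pi.mul_apply, cfb, mul_add, Finset.sum_add_distrib]
  rw [tan_apply (tan_trb M M' b), ← sum_P_D (M := M') ψ A p, Finset.mul_sum]
  congr 1
  exact Finset.sum_congr rfl fun c _ => by ring

theorem dir_trb (M : Imm d ι X) (M' : Imm d ι' X) (b : ι → X → ℝ) (f : X → ℝ) (p : X) :
    ∑ A, trb M M' b A p * M'.pre.D A f p = ∑ a, b a p * M'.pre.gam (M.pre.x a) f p := by
  simp only [trb, gam_apply, Finset.sum_mul, Finset.mul_sum]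
  rw [Finset.sum_comm]
  exact Finset.sum_congr rfl fun a _ => Finset.sum_congr rfl fun A _ => by ring

namespace CfRel

variable {M : Imm d ι X} {M' : Imm d ι' X} {ψ : X → ℝ}

omit [DecidableEq ι] [DecidableEq ι'] in
theorem sm_iff (h : CfRel M M' ψ) {F : Type} [NormedAddCommGroup F] [NormedSpace ℝ F]
    {f : X → F} : M'.Sm f ↔ M.Sm f := by
  rw [Imm.Sm, h.ch]

omit [DecidableEq ι] [DecidableEq ι'] in
theorem isChart (h : CfRel M M' ψ) (p : X) : IsChart M'.x (M.ch p) := h.ch ▸ M'.isChart p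

omit [DecidableEq ι] [DecidableEq ι'] in
theorem conf (h : CfRel M M' ψ) (p : X) : N346.Id.Conf (gram (M.x ∘ (M.ch p).symm))
    (gram (M'.x ∘ (M.ch p).symm)) (ψ ∘ (M.ch p).symm) (M.ch p).target :=
  ⟨(M.isChart p).isRiemannianOn, h.sm p, h.eq p⟩

theorem gam_eq (h : CfRel M M' ψ) (f g : X → ℝ) (p : X) :
    M'.pre.gam f g p = Real.exp (-(2 * ψ p)) * M.pre.gam f g p := by
  rw [gam_coord (h.isChart p) (M.mem p), gam_coord (M.isChart p) (M.mem p),
    (h.conf p).gam_eq ((M.ch p).map_source (M.mem p)), comp_apply, (M.ch p).left_inv (M.mem p)]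

theorem lap_eq (h : CfRel M M' ψ) {f : X → ℝ} (hf : M.Sm f) (p : X) :
    M'.pre.lap f p = Real.exp (-(2 * ψ p)) * (M.pre.lap f p + (d - 2) * M.pre.gam ψ f p) := by
  have hz := (M.ch p).map_source (M.mem p)
  have h2 : ContDiffAt ℝ 2 (f ∘ (M.ch p).symm) (M.ch p p) :=
    ((hf p).contDiffAt ((M.ch p).open_target.mem_nhds hz)).of_le two_le_inf
  rw [lap_coord (h.isChart p) (M.mem p) h2, lap_coord (M.isChart p) (M.mem p) h2,
    gam_coord (M.isChart p) (M.mem p), (h.conf p).lap_eq hz h2, comp_apply,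
    (M.ch p).left_inv (M.mem p)]

theorem scal_eq (h : CfRel M M' ψ) (p : X) : M'.pre.scal p = Real.exp (-(2 * ψ p)) *
    (M.pre.scal p - 2 * (d - 1) * M.pre.lap ψ p - (d - 1) * (d - 2) * M.pre.gam ψ ψ p) := by
  have hz := (M.ch p).map_source (M.mem p)
  have h2 : ContDiffAt ℝ 2 (ψ ∘ (M.ch p).symm) (M.ch p p) :=
    ((h.sm p).contDiffAt ((M.ch p).open_target.mem_nhds hz)).of_le two_le_inf
  have h3 := (h.conf p).scalar_eq hz
  rw [comp_apply, (M.ch p).left_inv (M.mem p)] at h3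
  rw [scal_coord (h.isChart p) (M.mem p), scal_coord (M.isChart p) (M.mem p),
    lap_coord (M.isChart p) (M.mem p) h2, gam_coord (M.isChart p) (M.mem p)]
  exact h3

theorem sm_trb (h : CfRel M M' ψ) {b : ι → X → ℝ} (hb : ∀ a, M.Sm (b a)) (A : ι') :
    M'.Sm (trb M M' b A) :=
  sm_sum _ fun a _ => (h.sm_iff.2 (hb a)).mul ((h.sm_iff.2 (M.sm_coord a)).D A)

theorem sm_cfb (h : CfRel M M' ψ) (k : ℝ) {b : ι → X → ℝ} (hb : ∀ a, M.Sm (b a)) (A : ι') :
    M'.Sm (cfb M M' ψ k b A) :=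
  (h.sm_trb hb A).add ((sm_const k).mul ((h.sm_iff.2 h.sm).D A))

theorem dir_trb_eq (h : CfRel M M' ψ) (b : ι → X → ℝ) (f : X → ℝ) (p : X) :
    M'.pre.dir (trb M M' b) f p = Real.exp (-(2 * ψ p)) * M.pre.dir b f p := by
  rw [dir_apply, dir_trb, dir_apply, Finset.mul_sum]
  refine Finset.sum_congr rfl fun a _ => ?_
  rw [h.gam_eq, gam_x_left]
  ring

theorem dir_cfb_eq (h : CfRel M M' ψ) (k : ℝ) (b : ι → X → ℝ) (f : X → ℝ) (p : X) :
    M'.pre.dir (cfb M M' ψ k b) f p =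
      Real.exp (-(2 * ψ p)) * (M.pre.dir b f p + k * M.pre.gam ψ f p) := by
  have h1 := h.dir_trb_eq b f p
  have h2 := h.gam_eq ψ f p
  rw [dir_apply] at h1
  rw [gam_apply] at h2
  rw [dir_apply, mul_add, ← h1, mul_left_comm, ← h2, Finset.mul_sum, ← Finset.sum_add_distrib]
  exact Finset.sum_congr rfl fun A _ => by rw [cfb]; ring

theorem sq_trb_eq (h : CfRel M M' ψ) {b : ι → X → ℝ} (hb : M.pre.Tan b) (p : X) :
    ∑ A, trb M M' b A p * trb M M' b A p = Real.exp (-(2 * ψ p)) * ∑ a, b a p * b a p := by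
  have h1 : ∀ A, trb M M' b A p * trb M M' b A p =
      ∑ c, b c p * (trb M M' b A p * M'.pre.D A (M.pre.x c) p) := fun A => by
    conv_lhs => rw [trb, Finset.sum_mul]
    exact Finset.sum_congr rfl fun c _ => by rw [trb]; ring
  simp only [h1]
  rw [Finset.sum_comm, Finset.mul_sum]
  refine Finset.sum_congr rfl fun c _ => ?_
  have h2 := h.dir_trb_eq b (M.pre.x c) p
  rw [dir_apply, dir_apply] at h2
  have h3 : ∑ a, b a p * M.pre.D a (M.pre.x c) p = b c p := by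
    rw [← tan_apply hb c p]
    exact Finset.sum_congr rfl fun a _ => by rw [M.P_symm c a, mul_comm]; rfl
  rw [← Finset.mul_sum, h2, h3]
  ring

theorem dv_trb_eq (h : CfRel M M' ψ) {b : ι → X → ℝ} (hb : ∀ a, M.Sm (b a)) (hT : M.pre.Tan b)
    (p : X) : M'.pre.dv (trb M M' b) p =
      Real.exp (-(2 * ψ p)) * (M.pre.dv b p + (d - 2) * M.pre.dir b ψ p) := by
  have hx : ∀ a, M'.Sm (M.pre.x a) := fun a => h.sm_iff.2 (M.sm_coord a)
  have h1 : ∀ A, M'.pre.D A (trb M M' b A) p = ∑ a, (b a p * M'.pre.D A (M'.pre.D A (M.pre.x a)) p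
      + M'.pre.D A (b a) p * M'.pre.D A (M.pre.x a) p) := fun A => by
    have h2 := D_sum (M := M') (p := p) Finset.univ
      (f := fun a q => b a q * M'.pre.D A (M.pre.x a) q)
      (fun a _ => ((h.sm_iff.2 (hb a)).mul ((hx a).D A)).diffAt p) A
    refine h2.trans (Finset.sum_congr rfl fun a _ => ?_)
    exact D_mul ((h.sm_iff.2 (hb a)).diffAt p) (((hx a).D A).diffAt p) A
  have h3 : ∀ a, ∑ A, (b a p * M'.pre.D A (M'.pre.D A (M.pre.x a)) p
      + M'.pre.D A (b a) p * M'.pre.D A (M.pre.x a) p) = Real.exp (-(2 * ψ p)) *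
        (M.pre.H a p * b a p + (M.pre.D a (b a) p + (d - 2) * (b a p * M.pre.D a ψ p))) := by
    intro a
    rw [Finset.sum_add_distrib, ← Finset.mul_sum, ← lap_apply, ← gam_apply,
      h.lap_eq (f := M.pre.x a) (M.sm_coord a), h.gam_eq, gam_comm M ψ, gam_comm M (b a),
      gam_x_left, gam_x_left, Pre.H]
    ring
  rw [dv_apply]
  simp only [h1]
  rw [Finset.sum_comm]
  simp only [h3]
  rw [← Finset.mul_sum, Finset.sum_add_distrib, H_tan hT, Finset.sum_add_distrib, ← Finset.mul_sum,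
    dv_apply, dir_apply, zero_add]

theorem dv_cfb_eq (h : CfRel M M' ψ) (k : ℝ) {b : ι → X → ℝ} (hb : ∀ a, M.Sm (b a))
    (hT : M.pre.Tan b) (p : X) : M'.pre.dv (cfb M M' ψ k b) p = Real.exp (-(2 * ψ p)) *
      (M.pre.dv b p + (d - 2) * M.pre.dir b ψ p
        + k * (M.pre.lap ψ p + (d - 2) * M.pre.gam ψ ψ p)) := by
  have hψ : M'.Sm ψ := h.sm_iff.2 h.sm
  have h1 : ∀ A, M'.pre.D A (cfb M M' ψ k b A) p =
      M'.pre.D A (trb M M' b A) p + k * M'.pre.D A (M'.pre.D A ψ) p := fun A => by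
    rw [← D_const_mul k ((hψ.D A).diffAt p)]
    exact D_add ((h.sm_trb hb A).diffAt p) (((sm_const k).mul (hψ.D A)).diffAt p) A
  rw [mul_add, ← h.dv_trb_eq hb hT, mul_left_comm, ← h.lap_eq h.sm, dv_apply, dv_apply, lap_apply,
    Finset.mul_sum, ← Finset.sum_add_distrib]
  exact Finset.sum_congr rfl fun A _ => h1 A

theorem sq_cfb_eq (h : CfRel M M' ψ) (k : ℝ) {b : ι → X → ℝ} (hT : M.pre.Tan b) (p : X) :
    ∑ A, cfb M M' ψ k b A p * cfb M M' ψ k b A p = Real.exp (-(2 * ψ p)) *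
      (∑ a, b a p * b a p + 2 * k * M.pre.dir b ψ p + k ^ 2 * M.pre.gam ψ ψ p) := by
  have h1 := h.sq_trb_eq hT p
  have h2 := h.dir_trb_eq b ψ p
  have h3 := h.gam_eq ψ ψ p
  rw [dir_apply] at h2
  rw [gam_apply] at h3
  have h4 : ∑ A, cfb M M' ψ k b A p * cfb M M' ψ k b A p = ∑ A, trb M M' b A p * trb M M' b A p
      + 2 * k * ∑ A, trb M M' b A p * M'.pre.D A ψ p
      + k ^ 2 * ∑ A, M'.pre.D A ψ p * M'.pre.D A ψ p := by
    rw [Finset.mul_sum, Finset.mul_sum, ← Finset.sum_add_distrib, ← Finset.sum_add_distrib]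
    exact Finset.sum_congr rfl fun A _ => by rw [cfb]; ring
  rw [h4, h1, h2, h3]
  ring

/-- **the conformal law** for `g' = e^{2ψ} g`, `b' = b + k dψ` -/
theorem Eb_eq (h : CfRel M M' ψ) (k : ℝ) {b : ι → X → ℝ} (hb : ∀ a, M.Sm (b a))
    (hT : M.pre.Tan b) (p : X) : M'.pre.Eb (cfb M M' ψ k b) p = Real.exp (-(2 * ψ p)) *
      (M.pre.Eb b p - 2 * (d - 1 + k) * M.pre.lap ψ p - 2 * (d - 2 + k) * M.pre.dir b ψ p
        - ((d - 1) * (d - 2) + 2 * k * (d - 2) + k ^ 2) * M.pre.gam ψ ψ p) := by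
  rw [Eb_apply, Eb_apply, h.scal_eq, h.dv_cfb_eq k hb hT, h.sq_cfb_eq k hT]
  ring

/-- `k = -(d - 2)`: the drift drops out -/
theorem Eb_eq_two (h : CfRel M M' ψ) {b : ι → X → ℝ} (hb : ∀ a, M.Sm (b a))
    (hT : M.pre.Tan b) (p : X) : M'.pre.Eb (cfb M M' ψ (2 - d) b) p = Real.exp (-(2 * ψ p)) *
      (M.pre.Eb b p - 2 * M.pre.lap ψ p - (d - 2) * M.pre.gam ψ ψ p) := by
  rw [h.Eb_eq _ hb hT]
  ring

/-- `k = -(d - 1)`: the Laplacian drops out -/
theorem Eb_eq_one (h : CfRel M M' ψ) {b : ι → X → ℝ} (hb : ∀ a, M.Sm (b a))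
    (hT : M.pre.Tan b) (p : X) : M'.pre.Eb (cfb M M' ψ (1 - d) b) p = Real.exp (-(2 * ψ p)) *
      (M.pre.Eb b p + 2 * M.pre.dir b ψ p - (d - 1) * M.pre.gam ψ ψ p) := by
  rw [h.Eb_eq _ hb hT]
  ring

end CfRel

end Crest.Agent.N228.Cf

end
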