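import Crest.Agent.N228.Cf.Twist
import Crest.Agent.N222.A.Gen
import Crest.Agent.N222.A.Id

/-!
# Row 228, conformal toolbox (helper28): graph step followed by a conformal change

`g'' = e^{2 f(v)} (g + dv²)`, `b'' = b - d log W + m dv - (d - 2) d f(v)`.
`Step M b v m f M' b'` collects the output; `exists_step` : it exists; `Step.le` : the master
inequality; `Step.gen_le` : GEN with the conformal gain; `trace_le` : the trace budget.
-/

set_option autoImplicit false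
set_option linter.unusedSectionVars false
open Set Filter Topology Function
open scoped ContDiff
open Crest.Agent.N222 Crest.Agent.N222.Imm Crest.Agent.N222.A

noncomputable section

namespace Crest.Agent.N228.Cf

variable {d : ℕ} {ι ι' : Type} [Fintype ι] [DecidableEq ι] [Fintype ι'] [DecidableEq ι']
  {X : Type} [TopologicalSpace X] {M : Imm d ι X} {b : ι → X → ℝ} {v m : X → ℝ}

theorem pre_graph (hv : M.Sm v) : (M.graph v hv).pre = stepS M.pre v := by
  let _ : MeasurableSpace X := ⊤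
  exact graph_pre hv

theorem ww_mul_vv (M : Imm d ι X) (v : X → ℝ) (p : X) : ww M.pre v p * vv M.pre v p = 1 :=
  mul_inv_cancel₀ (Real.sqrt_pos.2 (by linarith [gam_self_nonneg (M := M) v p])).ne'

theorem vv_sq_mul (M : Imm d ι X) (v : X → ℝ) (p : X) :
    vv M.pre v p ^ 2 * (1 + M.pre.gam v v p) = 1 := M.vv_sq v p

/-- the drift of the graph step -/
abbrev gb (M : Imm d ι X) (b : ι → X → ℝ) (v m : X → ℝ) : Option ι → X → ℝ :=
  M.pre.newb v (vv M.pre v) (ww M.pre v) m b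

/-- `h = div X + b(X)` -/
abbrev hh (M : Imm d ι X) (b : ι → X → ℝ) (v : X → ℝ) : X → ℝ := M.pre.hb b v (vv M.pre v)

/-- `n = m / W - h` -/
def nf (M : Imm d ι X) (b : ι → X → ℝ) (v m : X → ℝ) (p : X) : ℝ :=
  vv M.pre v p * m p - hh M b v p

/-- `X(f) = ⟨dv, df⟩ / W` -/
def xd (M : Imm d ι X) (v f : X → ℝ) (p : X) : ℝ := vv M.pre v p * M.pre.gam v f p

/-- `H = div X` -/
def hm (M : Imm d ι X) (v : X → ℝ) (p : X) : ℝ := M.pre.dv (M.pre.X v (vv M.pre v)) p

/-- `|A|² + |d log W|²` -/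
def bb (M : Imm d ι X) (v : X → ℝ) (p : X) : ℝ := M.pre.a2 v (vv M.pre v) p
  + ww M.pre v p ^ 2 * (stepS M.pre v).gam (vv M.pre v) (vv M.pre v) p

theorem sm_gb (hb : ∀ c, M.Sm (b c)) (hv : M.Sm v) (hm : M.Sm m) (c : Option ι) :
    M.Sm (gb M b v m c) :=
  (M.hom.newb ⟨v, hv⟩ ⟨_, sm_vv hv⟩ ⟨_, sm_ww hv⟩ ⟨m, hm⟩ (fun c => ⟨b c, hb c⟩) c ▸ sm_val _ :
    M.Sm (M.pre.newb (M.val ⟨v, hv⟩) (M.val ⟨_, sm_vv hv⟩) (M.val ⟨_, sm_ww hv⟩) (M.val ⟨m, hm⟩)
      (fun c => M.val ⟨b c, hb c⟩) c))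

theorem sm_nf (hb : ∀ c, M.Sm (b c)) (hv : M.Sm v) (hm : M.Sm m) : M.Sm (nf M b v m) :=
  ((sm_vv hv).mul hm).sub (sm_hb hb hv)

/-- the step identity for functions -/
theorem graph_id (hb : ∀ c, M.Sm (b c)) (tb : M.pre.Tan b) (hv : M.Sm v) (hm : M.Sm m) :
    (stepS M.pre v).Tan (gb M b v m) ∧ ∀ p, (stepS M.pre v).Eb (gb M b v m) p =
      M.pre.Eb b p + bb M v p + nf M b v m p ^ 2 - m p ^ 2 - 2 * xd M v (nf M b v m) p := by
  have tR : M.preR.Tan fun c => (⟨b c, hb c⟩ : SmR M.ch) := fun c => Subtype.ext (by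
    rw [← val_apply, map_sum]
    simp only [map_mul, M.hom.P]
    exact tb c)
  obtain ⟨i1, i2, -⟩ := id_step (SmR M.ch) ι M.preR M.isDS ⟨v, hv⟩ ⟨_, sm_vv hv⟩ ⟨_, sm_ww hv⟩
    ⟨m, hm⟩ (fun c => ⟨b c, hb c⟩) (hvR hv) (Subtype.ext (funext (ww_mul_vv M v))) tR
  have gh := M.hom.graph ⟨v, hv⟩ ⟨_, sm_vv hv⟩
  refine ⟨?_, fun p => ?_⟩
  · have := gh.tan i1
    simp only [M.hom.newb] at this
    exact this
  have j2 := congrArg M.val i2
  simp only [map_add, map_sub, map_mul, map_pow, map_ofNat, gh.Eb, gh.gam,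
    M.hom.Eb, M.hom.a2, M.hom.hb, M.hom.dir, M.hom.X, M.hom.newb, val_apply] at j2
  have en : vv M.pre v * m - M.pre.hb b v (vv M.pre v) = nf M b v m := rfl
  rw [en] at j2
  have k2 := congrFun j2 p
  simp only [Pi.add_apply, Pi.sub_apply, Pi.mul_apply, Pi.pow_apply, Pi.ofNat_apply] at k2
  rw [dirX] at k2
  change (stepS M.pre v).Eb (gb M b v m) p = _ at k2
  rw [k2, bb, xd, stepS]
  ring

theorem step_gam_v (hv : M.Sm v) {f : X → ℝ} (hf : M.Sm f) (p : X) :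
    (stepS M.pre v).gam v f p = vv M.pre v p * xd M v f p := by
  rw [step_gam hv hv hf, xd]
  linear_combination (-M.pre.gam v f p) * vv_sq_mul M v p

theorem step_gam_vv (hv : M.Sm v) (p : X) : (stepS M.pre v).gam v v p = 1 - vv M.pre v p ^ 2 := by
  rw [step_gam_v hv hv, xd]
  linear_combination vv_sq_mul M v p

theorem step_lap_v (hv : M.Sm v) (p : X) :
    (stepS M.pre v).lap v p = vv M.pre v p * hm M v p := by
  have := congrArg M.val (M.isDS.id_lap_u (hvR hv) (w := ⟨_, sm_ww hv⟩)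
    (Subtype.ext (funext (ww_mul_vv M v))))
  simp only [map_mul, (M.hom.graph _ _).lap, M.hom.dv, M.hom.X] at this
  exact congrFun this p

theorem A_tau (hv : M.Sm v) (p : X) : ∑ a, ∑ c, M.pre.A v (vv M.pre v) a c p *
    ((stepS M.pre v).D a v p * (stepS M.pre v).D c v p) =
      -vv M.pre v p * xd M v (vv M.pre v) p := by
  have := congrArg M.val (M.isDS.id_A_tau (hvR hv) (w := ⟨_, sm_ww hv⟩)
    (Subtype.ext (funext (ww_mul_vv M v))))
  simp only [map_mul, map_neg, map_sum, (M.hom.graph _ _).D, M.hom.dir, M.hom.X, M.hom.A,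
    val_apply] at this
  have k := congrFun this p
  simp only [Pi.mul_apply, Pi.neg_apply, Finset.sum_apply] at k
  rw [dirX] at k
  exact k

theorem sq_expand {κ : Type} [Fintype κ] (T P : κ → κ → ℝ) (Y : κ → ℝ) (l μ : ℝ) :
    0 ≤ ∑ a, ∑ c, T a c * T a c - 2 * l * ∑ a, ∑ c, P a c * T a c
      - 2 * μ * ∑ a, ∑ c, T a c * (Y a * Y c) + l ^ 2 * ∑ a, ∑ c, P a c * P a c
      + 2 * l * μ * ∑ a, Y a * ∑ c, P a c * Y c + μ ^ 2 * (∑ a, Y a * Y a) ^ 2 := by
  have h : 0 ≤ ∑ a, ∑ c, (T a c - l * P a c - μ * (Y a * Y c)) ^ 2 :=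
    Finset.sum_nonneg fun _ _ => Finset.sum_nonneg fun _ _ => sq_nonneg _
  refine h.trans_eq ?_
  rw [sq (∑ a, Y a * Y a), Finset.sum_mul_sum]
  simp only [Finset.mul_sum, ← Finset.sum_add_distrib, ← Finset.sum_sub_distrib]
  exact Finset.sum_congr rfl fun a _ => Finset.sum_congr rfl fun c _ => by ring

/-- the trace and the gradient direction of the second fundamental form -/
theorem key_le (hv : M.Sm v) (p : X) (c f1 : ℝ) :
    -((f1 * vv M.pre v p ^ 2 + c * (1 - vv M.pre v p ^ 2)) ^ 2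
      + (d - 1) * f1 ^ 2 * vv M.pre v p ^ 2) ≤
    bb M v p - 2 * f1 * vv M.pre v p * hm M v p + 2 * c * xd M v (vv M.pre v) p := by
  let _ : MeasurableSpace X := ⊤
  set om := vv M.pre v p with hom
  set N := M.graph v hv with hN
  have e : N.pre = stepS M.pre v := pre_graph hv
  have h1 := sq_expand (fun a c => M.pre.A v (vv M.pre v) a c p) (fun a c => N.pre.P a c p)
    (fun a => N.pre.D a v p) (f1 * om) (om * (c - f1))
  have t1 : ∑ a, ∑ c, M.pre.A v (vv M.pre v) a c p * M.pre.A v (vv M.pre v) a c p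
      = M.pre.a2 v (vv M.pre v) p := by simp [Pre.a2]
  have t2 : ∑ a, ∑ c, N.pre.P a c p * M.pre.A v (vv M.pre v) a c p = hm M v p := by
    rw [Finset.sum_comm]
    refine Eq.trans (Finset.sum_congr rfl fun c _ => ?_) (tr_A hv p)
    have h := congrFun (A_tan hv c c) p
    simp only [Finset.sum_apply, Pi.mul_apply] at h
    rw [← h]
    refine Finset.sum_congr rfl fun a _ => ?_
    rw [N.P_symm a c, e]
    rfl
  have t3 : ∑ a, ∑ c, N.pre.P a c p * N.pre.P a c p = d := by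
    rw [← N.tr_P p]
    refine Finset.sum_congr rfl fun a _ => ?_
    rw [← N.PP a a p]
    exact Finset.sum_congr rfl fun c _ => by rw [N.P_symm c a]
  have t4 : ∑ a, N.pre.D a v p * N.pre.D a v p = 1 - om ^ 2 := by
    rw [← gam_apply, e, step_gam_vv hv]
  have t5 := A_tau hv p
  rw [← e] at t5
  simp only [sum_P_D] at h1
  rw [t1, t2, t3, t4, t5] at h1
  set ρ := -om * (f1 * om ^ 2 + c * (1 - om ^ 2)) with hρ
  have h2 : 0 ≤ N.pre.gam (vv M.pre v) (vv M.pre v) p - 2 * ρ * N.pre.gam v (vv M.pre v) p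
      + ρ ^ 2 * N.pre.gam v v p := by
    have h : 0 ≤ ∑ a, (N.pre.D a (vv M.pre v) p - ρ * N.pre.D a v p) ^ 2 :=
      Finset.sum_nonneg fun _ _ => sq_nonneg _
    refine h.trans_eq ?_
    simp only [gam_apply, Finset.mul_sum, ← Finset.sum_add_distrib, ← Finset.sum_sub_distrib]
    exact Finset.sum_congr rfl fun a _ => by ring
  rw [e, step_gam_vv hv, step_gam_v hv (sm_vv hv), ← hom] at h2
  have hW := ww_mul_vv M v p
  rw [← hom] at hW
  have h3 := mul_nonneg (sq_nonneg (ww M.pre v p)) h2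
  have e3 : ww M.pre v p ^ 2 * ((stepS M.pre v).gam (vv M.pre v) (vv M.pre v) p
      - 2 * ρ * (om * xd M v (vv M.pre v) p) + ρ ^ 2 * (1 - om ^ 2)) =
      ww M.pre v p ^ 2 * (stepS M.pre v).gam (vv M.pre v) (vv M.pre v) p
      + 2 * (f1 * om ^ 2 + c * (1 - om ^ 2)) * xd M v (vv M.pre v) p
      + (f1 * om ^ 2 + c * (1 - om ^ 2)) ^ 2 * (1 - om ^ 2) := by
    rw [hρ]
    linear_combination (2 * (f1 * om ^ 2 + c * (1 - om ^ 2)) * xd M v (vv M.pre v) p
      + (f1 * om ^ 2 + c * (1 - om ^ 2)) ^ 2 * (1 - om ^ 2)) * (ww M.pre v p * om + 1) * hW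
  rw [e3] at h3
  rw [bb]
  nlinarith [h1, h3]

/-- the output of one combined step -/
structure Step (M : Imm d ι X) (b : ι → X → ℝ) (v m : X → ℝ) (f : ℝ → ℝ) (M' : Imm d ι' X)
    (b' : ι' → X → ℝ) : Prop where
  ch : M'.ch = M.ch
  sm : ∀ A, M'.Sm (b' A)
  tan : M'.pre.Tan b'
  gam : ∀ g h p, M'.pre.gam g h p = Real.exp (-(2 * f (v p))) * (stepS M.pre v).gam g h p
  eb : ∀ p, M'.pre.Eb b' p = Real.exp (-(2 * f (v p))) * (M.pre.Eb b p + bb M v p
    + nf M b v m p ^ 2 - m p ^ 2 - 2 * xd M v (nf M b v m) p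
    - 2 * deriv f (v p) * vv M.pre v p * hm M v p
    - (2 * deriv (deriv f) (v p) + (d - 2) * deriv f (v p) ^ 2) * (1 - vv M.pre v p ^ 2))

/-- **the combined step exists**, for bounded `v` -/
theorem exists_step (hb : ∀ c, M.Sm (b c)) (tb : M.pre.Tan b) (hv : M.Sm v) (hm : M.Sm m) {R : ℝ}
    (hR : ∀ p, |v p| ≤ R) {f : ℝ → ℝ} (hf : ContDiff ℝ ∞ f) :
    ∃ (M' : Imm d (Option (ι × Fin 3)) X) (b' : Option (ι × Fin 3) → X → ℝ) (δ : ℝ),
      Step M b v m f M' b' ∧ 0 < δ ∧ ∀ p a, M'.x p (some (a, 0)) = δ * M.x p a := by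
  obtain ⟨M', δ, hδ, h, hx⟩ := exists_cf M hv hR hf
  obtain ⟨i1, i2⟩ := graph_id hb tb hv hm
  have e := pre_graph hv
  have hs : ∀ c, (M.graph v hv).Sm (gb M b v m c) := sm_gb hb hv hm
  refine ⟨M', cfb (M.graph v hv) M' (fun p => f (v p)) (2 - d) (gb M b v m), δ,
    ⟨h.ch, h.sm_cfb _ hs, tan_cfb _ _ _ _ _, fun g k p => by rw [h.gam_eq, e], fun p => ?_⟩, hδ, hx⟩
  have hv' : (M.graph v hv).Sm v := hv
  have g1 : (M.graph v hv).pre.gam (fun p => f (v p)) (fun p => f (v p)) p =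
      deriv f (v p) ^ 2 * (M.graph v hv).pre.gam v v p := by
    simp only [gam_apply, D_comp (hv'.diffAt p) (hf.differentiable (by simp) _).hasDerivAt,
      Finset.mul_sum]
    exact Finset.sum_congr rfl fun a _ => by ring
  rw [h.Eb_eq_two hs (e ▸ i1), lap_comp hv' (hf.contDiffAt.of_le two_le_inf), g1, e, i2,
    step_gam_vv hv, step_lap_v hv]
  ring

namespace Step

variable {f : ℝ → ℝ} {M' : Imm d ι' X} {b' : ι' → X → ℝ}

theorem sm_iff (h : Step M b v m f M' b') {F : Type} [NormedAddCommGroup F] [NormedSpace ℝ F]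
    {g : X → F} : M'.Sm g ↔ M.Sm g := by
  rw [Imm.Sm, h.ch]

theorem gam_eq (h : Step M b v m f M' b') (hv : M.Sm v) {g k : X → ℝ} (hg : M.Sm g) (hk : M.Sm k)
    (p : X) : M'.pre.gam g k p = Real.exp (-(2 * f (v p))) *
      (M.pre.gam g k p - M.pre.gam v g p * M.pre.gam v k p / (1 + M.pre.gam v v p)) := by
  have h0 : 0 < 1 + M.pre.gam v v p := by linarith [gam_self_nonneg (M := M) v p]
  have h1 : vv M.pre v p ^ 2 = 1 / (1 + M.pre.gam v v p) :=
    (eq_div_iff h0.ne').2 (vv_sq_mul M v p)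
  rw [h.gam, step_gam hv hg hk]
  congr 2
  linear_combination (M.pre.gam v g p * M.pre.gam v k p) * h1

/-- **the master inequality**: `c` is a free parameter -/
theorem le (h : Step M b v m f M' b') (hv : M.Sm v) (p : X) (c : ℝ) :
    Real.exp (-(2 * f (v p))) * (M.pre.Eb b p + nf M b v m p ^ 2 - m p ^ 2
      - 2 * xd M v (nf M b v m) p - 2 * c * xd M v (vv M.pre v) p
      - (deriv f (v p) * vv M.pre v p ^ 2 + c * (1 - vv M.pre v p ^ 2)) ^ 2
      - (d - 1) * deriv f (v p) ^ 2 * vv M.pre v p ^ 2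
      - (2 * deriv (deriv f) (v p) + (d - 2) * deriv f (v p) ^ 2) * (1 - vv M.pre v p ^ 2))
      ≤ M'.pre.Eb b' p := by
  rw [h.eb]
  refine mul_le_mul_of_nonneg_left ?_ (Real.exp_pos _).le
  linarith [key_le hv p c (deriv f (v p))]

end Step

end Crest.Agent.N228.Cf

end
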