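import Crest.Agent.N228.Cf.Rel
import Crest.Agent.N222.F.Graph

/-!
# Row 228, conformal toolbox (helper28): the Nash twist

`exists_cf` : for a bounded smooth `v` and a smooth `f : ℝ → ℝ` the metric `e^{2 f(v)} (g + dv²)` is
EXACTLY the metric of an immersion (which contains `δ x` as a block).
-/

set_option autoImplicit false
set_option linter.unusedSectionVars false
open Set Filter Topology Function
open scoped ContDiff InnerProductSpace RealInnerProductSpace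
open Crest.Agent.N222 Crest.Agent.N222.Imm

noncomputable section

namespace Crest.Agent.N228.Cf

variable {d : ℕ} {ι : Type} [Fintype ι] {X : Type} [TopologicalSpace X]

/-- the profile functions of the twist -/
theorem exists_profile (N : ℕ) {f : ℝ → ℝ} (hf : ContDiff ℝ ∞ f) {C : ℝ}
    (h0 : ∀ t, |f t| ≤ C) (h1 : ∀ t, |deriv f t| ≤ C) :
    ∃ (δ ε : ℝ) (α G : ℝ → ℝ), 0 < δ ∧ 0 < ε ∧ ContDiff ℝ ∞ α ∧ ContDiff ℝ ∞ G ∧
      (∀ t, δ ^ 2 + α t ^ 2 = Real.exp (2 * f t)) ∧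
      ∀ t, deriv G t ^ 2 + N * ε ^ 2 * deriv α t ^ 2 = Real.exp (2 * f t) := by
  have hC : 0 ≤ C := (abs_nonneg _).trans (h0 0)
  set δ := Real.exp (-C) / 2 with hδ
  set ε := 1 / (2 * (N + 1) * (C + 1)) with hε
  have hδ2 : ∀ t, 4 * δ ^ 2 ≤ Real.exp (2 * f t) := fun t => by
    have : 4 * δ ^ 2 = Real.exp (2 * -C) := by
      rw [hδ, two_mul, Real.exp_add]; ring
    rw [this]
    exact Real.exp_le_exp.2 (by linarith [(abs_le.1 (h0 t)).1])
  have hδ0 : 0 < δ := by positivity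
  have hpos : ∀ t, 0 < Real.exp (2 * f t) - δ ^ 2 := fun t => by
    nlinarith [hδ2 t, pow_pos hδ0 2]
  have he : ContDiff ℝ ∞ fun t => Real.exp (2 * f t) := (contDiff_const.mul hf).exp
  set α : ℝ → ℝ := fun t => √(Real.exp (2 * f t) - δ ^ 2) with hα
  have hαs : ContDiff ℝ ∞ α := (he.sub contDiff_const).sqrt fun t => (hpos t).ne'
  have hα2 : ∀ t, α t ^ 2 = Real.exp (2 * f t) - δ ^ 2 := fun t => Real.sq_sqrt (hpos t).le
  have hα0 : ∀ t, 0 < α t := fun t => Real.sqrt_pos.2 (hpos t)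
  have hd : ∀ t, deriv α t * α t = Real.exp (2 * f t) * deriv f t := fun t => by
    have h2 := ((((hf.differentiable (by simp) t).hasDerivAt.const_mul 2).exp).sub_const
      (δ ^ 2)).sqrt (hpos t).ne'
    have h3 : deriv α t = _ := h2.deriv
    rw [h3]
    have := (hα0 t).ne'
    change _ / (2 * α t) * α t = _
    field_simp
  have hε2 : ∀ t, N * ε ^ 2 * deriv f t ^ 2 ≤ 1 / 4 := fun t => by
    have h2 : deriv f t ^ 2 ≤ (C + 1) ^ 2 := by
      rw [← sq_abs]; exact pow_le_pow_left₀ (abs_nonneg _) (by linarith [h1 t]) 2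
    have h3 : (N : ℝ) ≤ (N + 1) ^ 2 := by nlinarith [Nat.cast_nonneg (α := ℝ) N]
    calc (N : ℝ) * ε ^ 2 * deriv f t ^ 2 ≤ (N + 1) ^ 2 * ε ^ 2 * (C + 1) ^ 2 := by gcongr
      _ = 1 / 4 := by rw [hε]; field_simp; norm_num
  have hγ0 : ∀ t, 0 < Real.exp (2 * f t) - N * ε ^ 2 * deriv α t ^ 2 := fun t => by
    have h2 : N * ε ^ 2 * deriv α t ^ 2 * α t ^ 2 =
        Real.exp (2 * f t) ^ 2 * (N * ε ^ 2 * deriv f t ^ 2) := by
      have : (deriv α t * α t) ^ 2 = _ := congrArg (· ^ 2) (hd t)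
      linear_combination (N * ε ^ 2) * this
    have h3 := Real.exp_pos (2 * f t)
    have h4 : Real.exp (2 * f t) ^ 2 * (N * ε ^ 2 * deriv f t ^ 2) ≤
        Real.exp (2 * f t) ^ 2 * (1 / 4) := by gcongr; exact hε2 t
    refine (mul_pos_iff_of_pos_right (pow_pos (hα0 t) 2)).1 ?_
    rw [sub_mul, h2, hα2]
    nlinarith [hδ2 t]
  set γ : ℝ → ℝ := fun t => √(Real.exp (2 * f t) - N * ε ^ 2 * deriv α t ^ 2) with hγ
  have hγs : ContDiff ℝ ∞ γ := (he.sub (contDiff_const.mul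
    ((contDiff_infty_iff_deriv.1 hαs).2.pow 2))).sqrt fun t => (hγ0 t).ne'
  have hG : deriv (fun t => ∫ s in (0 : ℝ)..t, γ s) = γ :=
    funext fun t => hγs.continuous.deriv_integral γ 0 t
  refine ⟨δ, ε, α, fun t => ∫ s in (0 : ℝ)..t, γ s, hδ0, by positivity, hαs,
    contDiff_infty_iff_deriv.2 ⟨intervalIntegral.differentiable_integral_of_continuous
      hγs.continuous, hG.symm ▸ hγs⟩, fun t => by rw [hα2]; ring, fun t => ?_⟩
  rw [hG, hγ, Real.sq_sqrt (hγ0 t).le]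
  ring

/-- a smooth function agrees on a bounded set with a function bounded in `C¹` -/
theorem exists_cut {f : ℝ → ℝ} (hf : ContDiff ℝ ∞ f) (R : ℝ) : ∃ (g : ℝ → ℝ) (C : ℝ),
    ContDiff ℝ ∞ g ∧ (∀ t, |g t| ≤ C) ∧ (∀ t, |deriv g t| ≤ C) ∧ ∀ t, |t| ≤ R → g t = f t := by
  let b : ContDiffBump (0 : ℝ) := ⟨|R| + 1, |R| + 2, by positivity, by linarith⟩
  have h1 : ContDiff ℝ ∞ fun t => b t * f t := b.contDiff.mul hf
  have h2 : HasCompactSupport fun t => b t * f t := b.hasCompactSupport.mul_right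
  obtain ⟨C1, hC1⟩ := h1.continuous.bounded_above_of_compact_support h2
  obtain ⟨C2, hC2⟩ := (contDiff_infty_iff_deriv.1 h1).2.continuous.bounded_above_of_compact_support
    h2.deriv
  refine ⟨_, max C1 C2, h1, fun t => (hC1 t).trans (le_max_left _ _),
    fun t => (hC2 t).trans (le_max_right _ _), fun t ht => ?_⟩
  rw [b.one_of_mem_closedBall, one_mul]
  rw [mem_closedBall_zero_iff, Real.norm_eq_abs]
  change |t| ≤ |R| + 1
  linarith [le_abs_self R]

/-- the twist `(G, a, x) ↦ (G, δ x, ε a cos (x / ε), ε a sin (x / ε))` -/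
def tw (δ ε : ℝ) (q : ℝ × ℝ × E ι) : E (Option (ι × Fin 3)) :=
  WithLp.toLp 2 fun c => c.elim q.1 fun i =>
    ![δ * q.2.2 i.1, ε * q.2.1 * Real.cos (q.2.2 i.1 / ε), ε * q.2.1 * Real.sin (q.2.2 i.1 / ε)] i.2

/-- the derivative of the twist -/
def twD (δ ε : ℝ) (q w : ℝ × ℝ × E ι) : E (Option (ι × Fin 3)) :=
  WithLp.toLp 2 fun c => c.elim w.1 fun i =>
    ![δ * w.2.2 i.1,
      ε * w.2.1 * Real.cos (q.2.2 i.1 / ε) - q.2.1 * Real.sin (q.2.2 i.1 / ε) * w.2.2 i.1,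
      ε * w.2.1 * Real.sin (q.2.2 i.1 / ε) + q.2.1 * Real.cos (q.2.2 i.1 / ε) * w.2.2 i.1] i.2

theorem contDiff_tw (δ ε : ℝ) : ContDiff ℝ ∞ (tw (ι := ι) δ ε) := by
  refine contDiff_euclidean.2 fun c => ?_
  have hx : ∀ i : ι, ContDiff ℝ ∞ fun q : ℝ × ℝ × E ι => q.2.2 i := fun i =>
    (contDiff_euclidean.1 (contDiff_snd.comp contDiff_snd)) i
  have ha : ContDiff ℝ ∞ fun q : ℝ × ℝ × E ι => ε * q.2.1 :=
    contDiff_const.mul (contDiff_fst.comp contDiff_snd)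
  rcases c with _ | ⟨i, k⟩
  · exact contDiff_fst
  · fin_cases k
    · exact contDiff_const.mul (hx i)
    · exact ha.mul ((hx i).div_const ε).cos
    · exact ha.mul ((hx i).div_const ε).sin

theorem fderiv_tw (δ : ℝ) {ε : ℝ} (hε : ε ≠ 0) (q w : ℝ × ℝ × E ι) :
    fderiv ℝ (tw δ ε) q w = twD δ ε q w := by
  have hl : HasDerivAt (fun t : ℝ => q + t • w) w 0 := by
    simpa using ((hasDerivAt_id (0 : ℝ)).smul_const w).const_add q
  have h1 : HasDerivAt (fun t : ℝ => tw δ ε (q + t • w)) (fderiv ℝ (tw δ ε) q w) 0 := by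
    have h := ((contDiff_tw (ι := ι) δ ε).differentiable (by simp) (q + (0 : ℝ) • w)).hasFDerivAt
    have h2 := h.comp_hasDerivAt (0 : ℝ) hl
    rw [zero_smul, add_zero] at h2
    exact h2
  ext c
  have h2 : HasDerivAt (fun t : ℝ => tw δ ε (q + t • w) c) (fderiv ℝ (tw δ ε) q w c) 0 :=
    (EuclideanSpace.proj (𝕜 := ℝ) c).hasFDerivAt.comp_hasDerivAt 0 h1
  refine h2.unique ?_
  have hx : ∀ i : ι, HasDerivAt (fun t : ℝ => q.2.2 i + t * w.2.2 i) (w.2.2 i) 0 := fun i => by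
    simpa using ((hasDerivAt_id (0 : ℝ)).mul_const (w.2.2 i)).const_add (q.2.2 i)
  have ha : HasDerivAt (fun t : ℝ => ε * (q.2.1 + t * w.2.1)) (ε * w.2.1) 0 := by
    simpa using (((hasDerivAt_id (0 : ℝ)).mul_const w.2.1).const_add q.2.1).const_mul ε
  rcases c with _ | ⟨i, k⟩
  · simpa [tw, twD] using ((hasDerivAt_id (0 : ℝ)).mul_const w.1).const_add q.1
  · fin_cases k
    · exact (hx i).const_mul δ
    · refine (ha.mul ((hx i).div_const ε).cos).congr_deriv ?_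
      change _ = ε * w.2.1 * Real.cos (q.2.2 i / ε) - q.2.1 * Real.sin (q.2.2 i / ε) * w.2.2 i
      simp only [zero_mul, add_zero]
      field_simp
      ring
    · refine (ha.mul ((hx i).div_const ε).sin).congr_deriv ?_
      change _ = ε * w.2.1 * Real.sin (q.2.2 i / ε) + q.2.1 * Real.cos (q.2.2 i / ε) * w.2.2 i
      simp only [zero_mul, add_zero]
      field_simp

theorem inner_twD (δ ε : ℝ) (q w w' : ℝ × ℝ × E ι) : ⟪twD δ ε q w, twD δ ε q w'⟫ =
    w.1 * w'.1 + Fintype.card ι * ε ^ 2 * (w.2.1 * w'.2.1)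
      + (δ ^ 2 + q.2.1 ^ 2) * ⟪w.2.2, w'.2.2⟫ := by
  rw [PiLp.inner_apply, Fintype.sum_option, Fintype.sum_prod_type, PiLp.inner_apply,
    Finset.mul_sum, add_assoc]
  congr 1
  · simp [twD, mul_comm]
  have h : (Fintype.card ι : ℝ) * ε ^ 2 * (w.2.1 * w'.2.1) = ∑ _i : ι, ε ^ 2 * (w.2.1 * w'.2.1) := by
    simp [mul_assoc]
  rw [h, ← Finset.sum_add_distrib]
  refine Finset.sum_congr rfl fun i _ => ?_
  simp only [twD, Fin.sum_univ_three, Option.elim, RCLike.inner_apply, conj_trivial,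
    Matrix.cons_val_zero, Matrix.cons_val_one, Matrix.cons_val]
  linear_combination (ε ^ 2 * (w.2.1 * w'.2.1) + q.2.1 ^ 2 * (w.2.2 i * w'.2.2 i)) *
    Real.sin_sq_add_cos_sq (q.2.2 i / ε)

variable [DecidableEq ι]

theorem fderiv_graph {M : Imm d ι X} {v : X → ℝ} (hv : M.Sm v)
    {e : OpenPartialHomeomorph X (E (Fin d))} (he : IsChart M.x e) {z : E (Fin d)}
    (hz : z ∈ e.target) (w : E (Fin d)) : fderiv ℝ ((M.graph v hv).x ∘ e.symm) z w =
      up (fderiv ℝ (v ∘ e.symm) z w) (fderiv ℝ (M.x ∘ e.symm) z w) := by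
  let _ : MeasurableSpace X := ⊤
  have hp := e.map_target hz
  have h := fderiv_gx hv he hp w
  rw [← td_eq_inner, ← ContinuousLinearMap.comp_apply, ← fderiv_chart v he hp, e.right_inv hz] at h
  exact h

theorem inner_fderiv_tw {M : Imm d ι X} {v : X → ℝ} (hv : M.Sm v) (δ : ℝ) {ε : ℝ} (hε : ε ≠ 0)
    {α G : ℝ → ℝ} (hα : ContDiff ℝ ∞ α) (hG : ContDiff ℝ ∞ G)
    {e : OpenPartialHomeomorph X (E (Fin d))} (he : IsChart M.x e) {z : E (Fin d)}
    (hz : z ∈ e.target) (w w' : E (Fin d)) :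
    ⟪fderiv ℝ ((fun p => tw δ ε (G (v p), α (v p), M.x p)) ∘ e.symm) z w,
      fderiv ℝ ((fun p => tw δ ε (G (v p), α (v p), M.x p)) ∘ e.symm) z w'⟫ =
    (deriv G (v (e.symm z)) ^ 2 + Fintype.card ι * ε ^ 2 * deriv α (v (e.symm z)) ^ 2) *
        (fderiv ℝ (v ∘ e.symm) z w * fderiv ℝ (v ∘ e.symm) z w')
      + (δ ^ 2 + α (v (e.symm z)) ^ 2) *
        ⟪fderiv ℝ (M.x ∘ e.symm) z w, fderiv ℝ (M.x ∘ e.symm) z w'⟫ := by
  have hv1 := (((hv.chart he).contDiffAt (e.open_target.mem_nhds hz)).differentiableAt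
    (by simp)).hasFDerivAt
  have hx1 := ((he.cda hz).differentiableAt (by simp)).hasFDerivAt
  have hG1 := (hG.differentiable (by simp) (v (e.symm z))).hasDerivAt.comp_hasFDerivAt z hv1
  have hα1 := (hα.differentiable (by simp) (v (e.symm z))).hasDerivAt.comp_hasFDerivAt z hv1
  have h1 := (((contDiff_tw (ι := ι) δ ε).differentiable (by simp) _).hasFDerivAt.comp z
    (hG1.prodMk (hα1.prodMk hx1))).fderiv
  have h2 : ∀ u, fderiv ℝ ((fun p => tw δ ε (G (v p), α (v p), M.x p)) ∘ e.symm) z u =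
      twD δ ε (G (v (e.symm z)), α (v (e.symm z)), M.x (e.symm z))
        (deriv G (v (e.symm z)) * fderiv ℝ (v ∘ e.symm) z u,
          deriv α (v (e.symm z)) * fderiv ℝ (v ∘ e.symm) z u, fderiv ℝ (M.x ∘ e.symm) z u) := by
    intro u
    rw [← fderiv_tw δ hε]
    exact congrArg (fun T : E (Fin d) →L[ℝ] E (Option (ι × Fin 3)) => T u) h1
  rw [h2, h2, inner_twD]
  ring

/-- **exact realisation** of `e^{2 f(v)} (g + dv²)` -/
theorem exists_cf (M : Imm d ι X) {v : X → ℝ} (hv : M.Sm v) {R : ℝ} (hR : ∀ p, |v p| ≤ R)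
    {f : ℝ → ℝ} (hf : ContDiff ℝ ∞ f) : ∃ (M' : Imm d (Option (ι × Fin 3)) X) (δ : ℝ), 0 < δ ∧
      CfRel (M.graph v hv) M' (fun p => f (v p)) ∧ ∀ p a, M'.x p (some (a, 0)) = δ * M.x p a := by
  obtain ⟨g, C, hg, hg0, hg1, hgf⟩ := exists_cut hf R
  obtain ⟨δ, ε, α, G, hδ, hε, hα, hG, h1, h2⟩ := exists_profile (Fintype.card ι) hg hg0 hg1
  have key : ∀ p, ∀ z ∈ (M.ch p).target, ∀ w w',
      ⟪fderiv ℝ ((fun p => tw δ ε (G (v p), α (v p), M.x p)) ∘ (M.ch p).symm) z w,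
        fderiv ℝ ((fun p => tw δ ε (G (v p), α (v p), M.x p)) ∘ (M.ch p).symm) z w'⟫ =
      Real.exp (2 * f (v ((M.ch p).symm z))) *
        ⟪fderiv ℝ ((M.graph v hv).x ∘ (M.ch p).symm) z w,
          fderiv ℝ ((M.graph v hv).x ∘ (M.ch p).symm) z w'⟫ := fun p z hz w w' => by
    rw [inner_fderiv_tw hv δ hε.ne' hα hG (M.isChart p) hz, h1, h2, hgf _ (hR _),
      fderiv_graph hv (M.isChart p) hz, fderiv_graph hv (M.isChart p) hz, inner_up, mul_add]
  have hs : M.Sm fun p => tw δ ε (G (v p), α (v p), M.x p) :=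
    ((hv.comp hG).prodMk ((hv.comp hα).prodMk M.sm_x)).comp (contDiff_tw δ ε)
  refine ⟨⟨fun p => tw δ ε (G (v p), α (v p), M.x p), M.ch, M.mem, fun p => ⟨hs p, fun z hz => ?_⟩⟩,
    δ, hδ, ⟨rfl, hv.comp hf, fun p z hz => ?_⟩, fun p a => rfl⟩
  · refine (injective_iff_map_eq_zero _).2 fun w hw => ?_
    have h3 := key p z hz w w
    rw [hw, inner_zero_left] at h3
    have h4 := (mul_eq_zero.1 h3.symm).resolve_left (Real.exp_pos _).ne'
    exact (injective_iff_map_eq_zero _).1 (((M.graph v hv).isChart p).inj z hz) w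
      (inner_self_eq_zero.1 h4)
  · ext i j
    exact key p z hz (ee i) (ee j)

end Crest.Agent.N228.Cf

end
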