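import Crest.Agent.N228.Cf.Gen
import Crest.Agent.N228.A.Defs

/-! # Row 228, conformal toolbox (helper28): GEN with the factor `exp (- z v² / 4)` -/

set_option autoImplicit false
set_option linter.unusedSectionVars false
open Set Filter Topology Function
open scoped ContDiff
open Crest.Agent.N222 Crest.Agent.N222.Imm Crest.Agent.N222.A

noncomputable section

namespace Crest.Agent.N228.Cf

variable {d : ℕ} {ι ι' : Type} [Fintype ι] [DecidableEq ι] [Fintype ι'] [DecidableEq ι']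
  {X : Type} [TopologicalSpace X] {M : Imm d ι X} {b : ι → X → ℝ} {v m Q σ a : X → ℝ} {u0 : ℝ}
  {M' : Imm d ι' X} {b' : ι' → X → ℝ}

/-- the conformal factor `- z t² / 4` -/
def cq (z t : ℝ) : ℝ := -(z * t ^ 2 / 4)

theorem contDiff_cq (z : ℝ) : ContDiff ℝ ∞ (cq z) :=
  ((contDiff_const.mul (contDiff_id.pow 2)).div_const 4).neg

theorem deriv_cq (z : ℝ) : deriv (cq z) = fun t => -(z * t / 2) := by
  funext t
  have h := ((((hasDerivAt_id t).fun_pow 2).const_mul z).div_const 4).fun_neg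
  refine h.deriv.trans ?_
  simp only [id]
  ring

theorem deriv2_cq (z t : ℝ) : deriv (deriv (cq z)) t = -(z / 2) := by
  rw [deriv_cq]
  have h := (((hasDerivAt_id t).const_mul z).div_const 2).fun_neg
  refine h.deriv.trans ?_
  ring

theorem cfl_cq_le {d U W a z v : ℝ} (hW : 1 ≤ W) (hU : 0 < U) (hz : 0 ≤ z) (v0 : 0 ≤ v)
    (hv : v ≤ U) : cfl d U W a (-(z * v / 2)) (-(z / 2)) ≤ -A.zg d z U W v a := by
  have h0 : 0 ≤ 1 / W ^ 2 := by positivity
  have h1 : 1 / W ^ 2 ≤ 1 := (div_le_one (by positivity)).2 (one_le_pow₀ hW)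
  rw [cfl, A.zg]
  generalize 1 / W ^ 2 = w at h0 h1 ⊢
  have h2 : 0 ≤ 2 - w ^ 2 - w := by nlinarith
  have c0 : 0 ≤ 1 - w := sub_nonneg.2 h1
  have h3 : 0 ≤ 1 / U * (z * v) * (w * (1 - w)) := by positivity
  have h4 : a * (v * w) ≤ |a| * U :=
    (mul_le_mul_of_nonneg_right (le_abs_self a) (mul_nonneg v0 h0)).trans
      (mul_le_mul_of_nonneg_left (by nlinarith) (abs_nonneg a))
  have h5 := mul_le_mul_of_nonneg_left h4 (show 0 ≤ z * (U / 2) * (1 - w) by positivity)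
  nlinarith [mul_nonneg (sq_nonneg (z * v / 2)) h2]

/-- **GEN + zg** -/
theorem Step.gen_zg {z : ℝ} (h : Step M b v (mm M.pre b Q σ a v u0) (cq z) M' b') (hQ : M.Sm Q)
    (hσ : M.Sm σ) (ha : M.Sm a) (hv : M.Sm v) (v0 : ∀ p, 0 ≤ v p) (hu : 0 < u0) (hz : 0 ≤ z)
    (p : X) : Real.exp (z * v p ^ 2 / 2) * (M.pre.Eb b p
      + gen (u0 + v p) (√(1 + M.pre.gam v v p)) (beta Q σ v u0 p)
        (M.pre.gam v (beta Q σ v u0) p / √(1 + M.pre.gam v v p)) (a p)
        (M.pre.gam v a p / √(1 + M.pre.gam v v p))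
      - ((2 / u0 + |a p| * (u0 + v p)) * |dfc M.pre b Q σ v u0 p| + dfc M.pre b Q σ v u0 p ^ 2)
      + A.zg d z (u0 + v p) (√(1 + M.pre.gam v v p)) (v p) (a p)) ≤ M'.pre.Eb b' p := by
  have hW : 1 ≤ √(1 + M.pre.gam v v p) :=
    Real.one_le_sqrt.2 (by linarith [gam_self_nonneg (M := M) v p])
  have h1 := h.gen_le hQ hσ ha hv v0 hu p
  have e : -(2 * cq z (v p)) = z * v p ^ 2 / 2 := by rw [cq]; ring
  rw [deriv2_cq, deriv_cq, e] at h1
  refine le_trans (mul_le_mul_of_nonneg_left ?_ (Real.exp_pos _).le) h1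
  linarith [cfl_cq_le (d := d) (a := a p) hW (add_pos_of_pos_of_nonneg hu (v0 p)) hz (v0 p)
    (le_add_of_nonneg_left hu.le)]

theorem Step.gam_zg {z : ℝ} (h : Step M b v m (cq z) M' b') (hv : M.Sm v) {g k : X → ℝ}
    (hg : M.Sm g) (hk : M.Sm k) (p : X) : M'.pre.gam g k p = Real.exp (z * v p ^ 2 / 2) *
      (M.pre.gam g k p - M.pre.gam v g p * M.pre.gam v k p / (1 + M.pre.gam v v p)) := by
  rw [h.gam_eq hv hg hk, cq]
  congr 2
  ring

end Crest.Agent.N228.Cf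

end
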